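import Vale.Agent.P318.Defs

namespace Vale.Agent.P318

open Finset

variable {n : ℕ}

lemma pairSum_eq_half (w : Fin n → Fin n → ℝ) (hs : ∀ i j, w i j = w j i)
    (hd : ∀ i, w i i = 0) : pairSum w = (1 / 2) * ∑ i, ∑ j, w i j := by
  have h1 : ∑ i, ∑ j, w i j =
      (∑ i, ∑ j, if i < j then w i j else 0) + ∑ i, ∑ j, if j < i then w i j else 0 := by
    rw [← Finset.sum_add_distrib]
    refine Finset.sum_congr rfl fun i _ => ?_
    rw [← Finset.sum_add_distrib]
    refine Finset.sum_congr rfl fun j _ => ?_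
    rcases lt_trichotomy i j with h | h | h
    · simp [h, not_lt.mpr h.le]
    · subst h; simp [hd]
    · simp [h, not_lt.mpr h.le]
  have h2 : (∑ i, ∑ j, if j < i then w i j else 0) = ∑ i, ∑ j, if i < j then w i j else 0 := by
    rw [Finset.sum_comm]
    refine Finset.sum_congr rfl fun i _ => ?_
    refine Finset.sum_congr rfl fun j _ => ?_
    rw [hs j i]
  unfold pairSum
  rw [h1, h2]; ring

lemma pairSum_nonneg (w : Fin n → Fin n → ℝ) (h : ∀ i j, 0 ≤ w i j) : 0 ≤ pairSum w := by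
  unfold pairSum
  refine Finset.sum_nonneg fun i _ => Finset.sum_nonneg fun j _ => ?_
  split_ifs
  · exact h i j
  · exact le_rfl

lemma pairSum_smul (a : ℝ) (w : Fin n → Fin n → ℝ) :
    pairSum (fun i j => a * w i j) = a * pairSum w := by
  unfold pairSum
  rw [Finset.mul_sum]
  refine Finset.sum_congr rfl fun i _ => ?_
  rw [Finset.mul_sum]
  refine Finset.sum_congr rfl fun j _ => ?_
  split_ifs <;> simp

lemma pairSum_add (v w : Fin n → Fin n → ℝ) :
    pairSum (fun i j => v i j + w i j) = pairSum v + pairSum w := by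
  unfold pairSum
  rw [← Finset.sum_add_distrib]
  refine Finset.sum_congr rfl fun i _ => ?_
  rw [← Finset.sum_add_distrib]
  refine Finset.sum_congr rfl fun j _ => ?_
  split_ifs <;> simp

lemma pairSum_le (v w : Fin n → Fin n → ℝ) (h : ∀ i j, v i j ≤ w i j) :
    pairSum v ≤ pairSum w := by
  unfold pairSum
  refine Finset.sum_le_sum fun i _ => Finset.sum_le_sum fun j _ => ?_
  split_ifs
  · exact h i j
  · exact le_rfl

namespace IsNegTypeSemimetric

variable {d : Fin n → Fin n → ℝ}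

lemma nonneg (h : IsNegTypeSemimetric d) (i j : Fin n) : 0 ≤ d i j := by
  obtain ⟨⟨x, hx⟩, _⟩ := h
  rw [hx]; positivity

lemma symm (h : IsNegTypeSemimetric d) (i j : Fin n) : d i j = d j i := by
  obtain ⟨⟨x, hx⟩, _⟩ := h
  rw [hx, hx, norm_sub_rev]

lemma diag (h : IsNegTypeSemimetric d) (i : Fin n) : d i i = 0 := by
  obtain ⟨⟨x, hx⟩, _⟩ := h
  rw [hx]; simp

lemma tri (h : IsNegTypeSemimetric d) (i j k : Fin n) : d i k ≤ d i j + d j k := h.2 i j k

lemma smul (h : IsNegTypeSemimetric d) {a : ℝ} (ha : 0 ≤ a) :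
    IsNegTypeSemimetric (fun i j => a * d i j) := by
  obtain ⟨⟨x, hx⟩, ht⟩ := h
  refine ⟨⟨fun i => Real.sqrt a • x i, fun i j => ?_⟩, fun i j k => ?_⟩
  · show a * d i j = _
    rw [← smul_sub, norm_smul, mul_pow, hx, Real.norm_eq_abs, sq_abs, Real.sq_sqrt ha]
  · have := ht i j k
    nlinarith

end IsNegTypeSemimetric

/-- the capacity crossing a cut -/
noncomputable def cutCap (c : Fin n → Fin n → ℝ) (S : Finset (Fin n)) : ℝ :=
  ∑ i ∈ S, ∑ j ∈ Sᶜ, c i j

/-- the cut semimetric -/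
noncomputable def cutMet (S : Finset (Fin n)) (i j : Fin n) : ℝ :=
  if (i ∈ S ↔ j ∈ S) then 0 else 1

lemma cutMet_symm (S : Finset (Fin n)) (i j : Fin n) : cutMet S i j = cutMet S j i := by
  unfold cutMet
  by_cases hi : i ∈ S <;> by_cases hj : j ∈ S <;> simp [hi, hj]

lemma cutMet_diag (S : Finset (Fin n)) (i : Fin n) : cutMet S i i = 0 := by
  simp [cutMet]

lemma cutMet_nonneg (S : Finset (Fin n)) (i j : Fin n) : 0 ≤ cutMet S i j := by
  unfold cutMet; split_ifs <;> norm_num

lemma dblSum_mul_cutMet (c : Fin n → Fin n → ℝ) (hs : ∀ i j, c i j = c j i)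
    (S : Finset (Fin n)) :
    ∑ i, ∑ j, c i j * cutMet S i j = 2 * cutCap c S := by
  have key : ∀ T : Finset (Fin n), ∀ f : Fin n → ℝ,
      ∑ i, f i = ∑ i ∈ T, f i + ∑ i ∈ Tᶜ, f i := fun T f => (Finset.sum_add_sum_compl T f).symm
  rw [key S]
  have h1 : ∑ i ∈ S, ∑ j, c i j * cutMet S i j = cutCap c S := by
    unfold cutCap
    refine Finset.sum_congr rfl fun i hi => ?_
    rw [key S]
    have a1 : ∑ j ∈ S, c i j * cutMet S i j = 0 :=
      Finset.sum_eq_zero fun j hj => by simp [cutMet, hi, hj]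
    have a2 : ∑ j ∈ Sᶜ, c i j * cutMet S i j = ∑ j ∈ Sᶜ, c i j :=
      Finset.sum_congr rfl fun j hj => by
        have : j ∉ S := by simpa using hj
        simp [cutMet, hi, this]
    rw [a1, a2, zero_add]
  have h2 : ∑ i ∈ Sᶜ, ∑ j, c i j * cutMet S i j = cutCap c S := by
    have e : cutCap c S = ∑ j ∈ Sᶜ, ∑ i ∈ S, c i j := Finset.sum_comm
    rw [e]
    refine Finset.sum_congr rfl fun i hi => ?_
    have hi' : i ∉ S := by simpa using hi
    rw [key S]
    have a1 : ∑ j ∈ Sᶜ, c i j * cutMet S i j = 0 :=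
      Finset.sum_eq_zero fun j hj => by
        have : j ∉ S := by simpa using hj
        simp [cutMet, hi', this]
    have a2 : ∑ j ∈ S, c i j * cutMet S i j = ∑ j ∈ S, c j i :=
      Finset.sum_congr rfl fun j hj => by
        simp [cutMet, hi', hj, hs i j]
    rw [a1, a2, add_zero]
  rw [h1, h2]; ring

lemma pairSum_mul_cutMet (c : Fin n → Fin n → ℝ) (hs : ∀ i j, c i j = c j i)
    (S : Finset (Fin n)) :
    pairSum (fun i j => c i j * cutMet S i j) = cutCap c S := by
  rw [pairSum_eq_half _ (fun i j => by rw [hs i j, cutMet_symm]) (fun i => by simp [cutMet_diag]),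
    dblSum_mul_cutMet c hs]
  ring

lemma cutCap_one (S : Finset (Fin n)) :
    cutCap (fun _ _ => (1 : ℝ)) S = (S.card : ℝ) * ((n : ℝ) - S.card) := by
  unfold cutCap
  simp only [Finset.sum_const, nsmul_eq_mul, mul_one]
  rw [Finset.card_compl, Fintype.card_fin, Nat.cast_sub]
  exact (Finset.card_le_univ S).trans (by simp)

lemma pairSum_cutMet (S : Finset (Fin n)) :
    pairSum (cutMet S) = (S.card : ℝ) * ((n : ℝ) - S.card) := by
  have := pairSum_mul_cutMet (fun _ _ => (1 : ℝ)) (fun _ _ => rfl) S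
  simp only [one_mul] at this
  rw [← cutCap_one S, ← this]

lemma card_pos_of (S : Finset (Fin n)) (h1 : S.Nonempty) (h2 : S ≠ univ) :
    0 < (S.card : ℝ) * ((n : ℝ) - S.card) := by
  have a : 0 < S.card := Finset.card_pos.mpr h1
  have b : S.card < n := by
    have := Finset.card_lt_card (Finset.ssubset_univ_iff.mpr h2)
    simpa using this
  have a' : (0 : ℝ) < S.card := by exact_mod_cast a
  have b' : (S.card : ℝ) < n := by exact_mod_cast b
  exact mul_pos a' (by linarith)

end Vale.Agent.P318
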