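import Vale.Agent.P318.Basic

namespace Vale.Agent.P318

open Finset

variable {n : ℕ} {c : Fin n → Fin n → ℝ}

lemma cutCap_nonneg (hc : IsCapacity c) (S : Finset (Fin n)) : 0 ≤ cutCap c S :=
  Finset.sum_nonneg fun i _ => Finset.sum_nonneg fun j _ => hc.nonneg i j

lemma cutRatio_eq (c : Fin n → Fin n → ℝ) (S : Finset (Fin n)) :
    cutRatio c S = cutCap c S / ((S.card : ℝ) * ((n : ℝ) - S.card)) := rfl

lemma card_mul_nonneg (S : Finset (Fin n)) : 0 ≤ (S.card : ℝ) * ((n : ℝ) - S.card) := by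
  have : (S.card : ℝ) ≤ n := by
    have := Finset.card_le_univ S
    simp only [Fintype.card_fin] at this
    exact_mod_cast this
  exact mul_nonneg (Nat.cast_nonneg _) (by linarith)

lemma cutRatio_nonneg (hc : IsCapacity c) (S : Finset (Fin n)) : 0 ≤ cutRatio c S := by
  rw [cutRatio_eq]
  exact div_nonneg (cutCap_nonneg hc S) (card_mul_nonneg S)

lemma Phi_bddBelow (hc : IsCapacity c) :
    BddBelow {r | ∃ S : Finset (Fin n), S.Nonempty ∧ S ≠ univ ∧ r = cutRatio c S} :=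
  ⟨0, by rintro r ⟨S, _, _, rfl⟩; exact cutRatio_nonneg hc S⟩

lemma Phi_le (hc : IsCapacity c) {S : Finset (Fin n)} (h1 : S.Nonempty) (h2 : S ≠ univ) :
    Phi c ≤ cutRatio c S :=
  csInf_le (Phi_bddBelow hc) ⟨S, h1, h2, rfl⟩

lemma Phi_mul_le (hc : IsCapacity c) {S : Finset (Fin n)} (h1 : S.Nonempty) (h2 : S ≠ univ) :
    Phi c * ((S.card : ℝ) * ((n : ℝ) - S.card)) ≤ cutCap c S := by
  have := Phi_le hc h1 h2
  rw [cutRatio_eq, le_div_iff₀ (card_pos_of S h1 h2)] at this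
  exact this

lemma exists_proper (hn : 2 ≤ n) : ∃ S : Finset (Fin n), S.Nonempty ∧ S ≠ univ := by
  refine ⟨{⟨0, by omega⟩}, Finset.singleton_nonempty _, fun h => ?_⟩
  have := congrArg Finset.card h
  simp at this
  omega

lemma le_Phi (hn : 2 ≤ n) {a : ℝ}
    (h : ∀ S : Finset (Fin n), S.Nonempty → S ≠ univ → a ≤ cutRatio c S) : a ≤ Phi c := by
  obtain ⟨S, h1, h2⟩ := exists_proper hn
  refine le_csInf ⟨_, S, h1, h2, rfl⟩ ?_
  rintro r ⟨T, t1, t2, rfl⟩
  exact h T t1 t2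

lemma Phi_nonneg (hn : 2 ≤ n) (hc : IsCapacity c) : 0 ≤ Phi c :=
  le_Phi hn fun S _ _ => cutRatio_nonneg hc S

lemma gl_bddBelow (hc : IsCapacity c) :
    BddBelow {r | ∃ d : Fin n → Fin n → ℝ, IsNegTypeSemimetric d ∧ pairSum d = 1 ∧
      r = pairSum (fun i j => c i j * d i j)} :=
  ⟨0, by
    rintro r ⟨d, hd, _, rfl⟩
    exact pairSum_nonneg _ fun i j => mul_nonneg (hc.nonneg i j) (hd.nonneg i j)⟩

lemma glVal_le (hc : IsCapacity c) {d : Fin n → Fin n → ℝ} (hd : IsNegTypeSemimetric d)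
    (h1 : pairSum d = 1) : glVal c ≤ pairSum (fun i j => c i j * d i j) :=
  csInf_le (gl_bddBelow hc) ⟨d, hd, h1, rfl⟩

lemma glVal_mul_le (hc : IsCapacity c) {d : Fin n → Fin n → ℝ} (hd : IsNegTypeSemimetric d) :
    glVal c * pairSum d ≤ pairSum (fun i j => c i j * d i j) := by
  have h0 : 0 ≤ pairSum d := pairSum_nonneg _ hd.nonneg
  rcases h0.eq_or_lt with h | h
  · rw [← h, mul_zero]
    exact pairSum_nonneg _ fun i j => mul_nonneg (hc.nonneg i j) (hd.nonneg i j)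
  · have hs := hd.smul (a := (pairSum d)⁻¹) (inv_nonneg.mpr h0)
    have h1 : pairSum (fun i j => (pairSum d)⁻¹ * d i j) = 1 := by
      rw [pairSum_smul, inv_mul_cancel₀ h.ne']
    have := glVal_le hc hs h1
    have e : pairSum (fun i j => c i j * ((pairSum d)⁻¹ * d i j)) =
        (pairSum d)⁻¹ * pairSum (fun i j => c i j * d i j) := by
      rw [← pairSum_smul]
      congr 1
      funext i j
      ring
    rw [e] at this
    calc glVal c * pairSum d ≤ ((pairSum d)⁻¹ * pairSum (fun i j => c i j * d i j)) * pairSum d :=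
          mul_le_mul_of_nonneg_right this h0
      _ = pairSum (fun i j => c i j * d i j) := by field_simp

lemma cutMet_negType (hn : 0 < n) (S : Finset (Fin n)) : IsNegTypeSemimetric (cutMet S) := by
  refine ⟨⟨fun i => if i ∈ S then EuclideanSpace.single ⟨0, hn⟩ (1 : ℝ) else 0, fun i j => ?_⟩,
    fun i j k => ?_⟩
  · by_cases hi : i ∈ S <;> by_cases hj : j ∈ S <;> simp [cutMet, hi, hj]
  · by_cases hi : i ∈ S <;> by_cases hj : j ∈ S <;> by_cases hk : k ∈ S <;>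
      simp [cutMet, hi, hj, hk]

lemma glVal_le_cutRatio (hc : IsCapacity c) {S : Finset (Fin n)} (h1 : S.Nonempty)
    (h2 : S ≠ univ) : glVal c ≤ cutRatio c S := by
  have hn : 0 < n := by
    obtain ⟨i, _⟩ := h1
    exact i.pos
  have := glVal_mul_le hc (cutMet_negType hn S)
  rw [pairSum_cutMet, pairSum_mul_cutMet c hc.symm] at this
  rw [cutRatio_eq, le_div_iff₀ (card_pos_of S h1 h2)]
  exact this

lemma glVal_le_Phi (hn : 2 ≤ n) (hc : IsCapacity c) : glVal c ≤ Phi c :=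
  le_Phi hn fun _ h1 h2 => glVal_le_cutRatio hc h1 h2

lemma le_glVal (hn : 2 ≤ n) {a : ℝ}
    (h : ∀ d : Fin n → Fin n → ℝ, IsNegTypeSemimetric d → pairSum d = 1 →
      a ≤ pairSum (fun i j => c i j * d i j)) : a ≤ glVal c := by
  obtain ⟨S, h1, h2⟩ := exists_proper hn
  have hpos := card_pos_of S h1 h2
  have hs := (cutMet_negType (by omega : 0 < n) S).smul
    (a := ((S.card : ℝ) * ((n : ℝ) - S.card))⁻¹) (inv_nonneg.mpr hpos.le)
  have h1' : pairSum (fun i j => ((S.card : ℝ) * ((n : ℝ) - S.card))⁻¹ * cutMet S i j) = 1 := by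
    rw [pairSum_smul, pairSum_cutMet, inv_mul_cancel₀ hpos.ne']
  refine le_csInf ⟨_, _, hs, h1', rfl⟩ ?_
  rintro r ⟨d, hd, hd1, rfl⟩
  exact h d hd hd1

lemma glVal_nonneg (hn : 2 ≤ n) (hc : IsCapacity c) : 0 ≤ glVal c :=
  le_glVal hn fun d hd _ => pairSum_nonneg _ fun i j => mul_nonneg (hc.nonneg i j) (hd.nonneg i j)

end Vale.Agent.P318
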