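import Vale.Agent.P318.Main

namespace Vale.Agent.P318

open Finset

variable {n N : ℕ}

/-- fiber sizes of a map between vertex sets -/
def fib (p : Fin N → Fin n) (u : Fin n) : ℕ := (univ.filter fun i => p i = u).card

lemma sum_comp_fib (p : Fin N → Fin n) (F : Fin n → ℝ) :
    ∑ i, F (p i) = ∑ u, (fib p u : ℝ) * F u := by
  rw [← Finset.sum_fiberwise univ p (fun i => F (p i))]
  refine Finset.sum_congr rfl fun u _ => ?_
  rw [Finset.sum_congr rfl (g := fun _ => F u) (fun i hi => by rw [(Finset.mem_filter.mp hi).2])]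
  simp [fib]

lemma dbl_comp_fib (p : Fin N → Fin n) (F : Fin n → Fin n → ℝ) :
    ∑ i, ∑ j, F (p i) (p j) = ∑ u, ∑ v, (fib p u : ℝ) * (fib p v : ℝ) * F u v := by
  have h1 : ∀ i, ∑ j, F (p i) (p j) = ∑ v, (fib p v : ℝ) * F (p i) v :=
    fun i => sum_comp_fib p (fun v => F (p i) v)
  simp only [h1]
  rw [sum_comp_fib p (fun u => ∑ v, (fib p v : ℝ) * F u v)]
  refine Finset.sum_congr rfl fun u _ => ?_
  rw [Finset.mul_sum]
  refine Finset.sum_congr rfl fun v _ => ?_
  ring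

/-- capacities of the blow-up along `p` -/
noncomputable def blowCap (c : Fin n → Fin n → ℝ) (p : Fin N → Fin n) (b M : ℝ) (i j : Fin N) : ℝ :=
  if p i = p j then (if i = j then 0 else M)
  else b ^ 2 * c (p i) (p j) / ((fib p (p i) : ℝ) * (fib p (p j) : ℝ))

lemma blowCap_isCapacity {c : Fin n → Fin n → ℝ} (hc : IsCapacity c) (p : Fin N → Fin n)
    (b : ℝ) {M : ℝ} (hM : 0 ≤ M) : IsCapacity (blowCap c p b M) where
  symm i j := by
    unfold blowCap
    by_cases h : p i = p j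
    · by_cases h' : i = j
      · subst h'; rfl
      · simp [h, h', Ne.symm h']
    · simp only [h, Ne.symm h, if_false]
      rw [hc.symm (p i) (p j), mul_comm (fib p (p i) : ℝ)]
  nonneg i j := by
    unfold blowCap
    split_ifs
    · exact le_rfl
    · exact hM
    · have := hc.nonneg (p i) (p j)
      positivity
  diag i := by simp [blowCap]

lemma dbl_blow (c : Fin n → Fin n → ℝ) (p : Fin N → Fin n) (b M : ℝ)
    (hw : ∀ u, 0 < fib p u) (e : Fin n → Fin n → ℝ) (he : ∀ u, e u u = 0) :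
    ∑ i, ∑ j, blowCap c p b M i j * e (p i) (p j) = b ^ 2 * ∑ u, ∑ v, c u v * e u v := by
  have h1 : ∀ i j, blowCap c p b M i j * e (p i) (p j) =
      (fun u v => b ^ 2 * c u v * e u v / ((fib p u : ℝ) * (fib p v : ℝ))) (p i) (p j) := by
    intro i j
    by_cases h : p i = p j
    · simp [h, he]
    · simp only [blowCap, h, if_false]
      ring
  rw [Finset.sum_congr rfl (fun i _ => Finset.sum_congr rfl (fun j _ => h1 i j)),
    dbl_comp_fib p (fun u v => b ^ 2 * c u v * e u v / ((fib p u : ℝ) * (fib p v : ℝ))),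
    Finset.mul_sum]
  refine Finset.sum_congr rfl fun u _ => ?_
  rw [Finset.mul_sum]
  refine Finset.sum_congr rfl fun v _ => ?_
  have hu : (fib p u : ℝ) ≠ 0 := by exact_mod_cast (hw u).ne'
  have hv : (fib p v : ℝ) ≠ 0 := by exact_mod_cast (hw v).ne'
  field_simp

lemma Phi_blow {c : Fin n → Fin n → ℝ} (hn : 2 ≤ n) (hN : 2 ≤ N) (hc : IsCapacity c)
    (p : Fin N → Fin n) (b : ℕ) (hw : ∀ u, 0 < fib p u) (hb : ∀ u, fib p u ≤ b) :
    Phi c ≤ Phi (blowCap c p b (Phi c * (N : ℝ) ^ 2)) := by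
  have hP := Phi_nonneg hn hc
  have hM : 0 ≤ Phi c * (N : ℝ) ^ 2 := by positivity
  have hcap := blowCap_isCapacity hc p (b : ℝ) hM
  refine le_Phi hN fun S h1 h2 => ?_
  rw [cutRatio_eq, le_div_iff₀ (card_pos_of S h1 h2)]
  by_cases hsat : ∀ i j, p i = p j → (i ∈ S ↔ j ∈ S)
  · set T : Finset (Fin n) := univ.filter fun u => ∃ i ∈ S, p i = u with hT
    have hmem : ∀ i, p i ∈ T ↔ i ∈ S := by
      intro i
      constructor
      · intro h
        obtain ⟨i', hi', hp⟩ := (Finset.mem_filter.mp h).2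
        exact (hsat i' i hp).mp hi'
      · intro h
        exact Finset.mem_filter.mpr ⟨Finset.mem_univ _, i, h, rfl⟩
    have hcm : ∀ i j, cutMet S i j = cutMet T (p i) (p j) := by
      intro i j
      simp [cutMet, hmem]
    have e1 : cutCap (blowCap c p b (Phi c * (N : ℝ) ^ 2)) S = (b : ℝ) ^ 2 * cutCap c T := by
      have h3 := dblSum_mul_cutMet _ hcap.symm S
      simp only [hcm] at h3
      rw [dbl_blow c p b _ hw (cutMet T) (cutMet_diag T), dblSum_mul_cutMet c hc.symm] at h3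
      linarith
    have e2 : (S.card : ℝ) * ((N : ℝ) - S.card) ≤ (b : ℝ) ^ 2 * ((T.card : ℝ) * ((n : ℝ) - T.card)) := by
      rw [← pairSum_cutMet, ← pairSum_cutMet, pairSum_eq_half _ (cutMet_symm S) (cutMet_diag S),
        pairSum_eq_half _ (cutMet_symm T) (cutMet_diag T)]
      simp only [hcm]
      rw [dbl_comp_fib]
      have : ∑ u, ∑ v, (fib p u : ℝ) * (fib p v : ℝ) * cutMet T u v ≤
          ∑ u, ∑ v, (b : ℝ) ^ 2 * cutMet T u v := by
        refine Finset.sum_le_sum fun u _ => Finset.sum_le_sum fun v _ => ?_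
        refine mul_le_mul_of_nonneg_right ?_ (cutMet_nonneg _ _ _)
        have hu : (fib p u : ℝ) ≤ b := by exact_mod_cast hb u
        have hv : (fib p v : ℝ) ≤ b := by exact_mod_cast hb v
        have hu0 : (0 : ℝ) ≤ fib p u := Nat.cast_nonneg _
        have hv0 : (0 : ℝ) ≤ fib p v := Nat.cast_nonneg _
        nlinarith
      simp only [← Finset.mul_sum] at this
      linarith
    rw [e1]
    have h4 := Phi_mul_le' hc T
    have hb2 : (0 : ℝ) ≤ (b : ℝ) ^ 2 := by positivity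
    calc Phi c * ((S.card : ℝ) * ((N : ℝ) - S.card))
        ≤ Phi c * ((b : ℝ) ^ 2 * ((T.card : ℝ) * ((n : ℝ) - T.card))) :=
          mul_le_mul_of_nonneg_left e2 hP
      _ = (b : ℝ) ^ 2 * (Phi c * ((T.card : ℝ) * ((n : ℝ) - T.card))) := by ring
      _ ≤ _ := mul_le_mul_of_nonneg_left h4 hb2
  · have hex : ∃ i j, p i = p j ∧ i ∈ S ∧ j ∉ S := by
      by_contra hcon
      apply hsat
      intro i j hij
      constructor
      · intro hi
        by_contra hj
        exact hcon ⟨i, j, hij, hi, hj⟩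
      · intro hj
        by_contra hi
        exact hcon ⟨j, i, hij.symm, hj, hi⟩
    obtain ⟨i, j, hij, hi, hj⟩ := hex
    have hne : i ≠ j := fun h => hj (h ▸ hi)
    have h3 : Phi c * (N : ℝ) ^ 2 ≤ cutCap (blowCap c p b (Phi c * (N : ℝ) ^ 2)) S := by
      have a1 : blowCap c p b (Phi c * (N : ℝ) ^ 2) i j = Phi c * (N : ℝ) ^ 2 := by
        simp [blowCap, hij, hne]
      have a2 : blowCap c p b (Phi c * (N : ℝ) ^ 2) i j ≤
          ∑ j' ∈ Sᶜ, blowCap c p b (Phi c * (N : ℝ) ^ 2) i j' :=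
        Finset.single_le_sum (f := fun j' => blowCap c p b (Phi c * (N : ℝ) ^ 2) i j')
          (fun j' _ => hcap.nonneg _ _) (by simpa using hj)
      have a3 : ∑ j' ∈ Sᶜ, blowCap c p b (Phi c * (N : ℝ) ^ 2) i j' ≤
          cutCap (blowCap c p b (Phi c * (N : ℝ) ^ 2)) S :=
        Finset.single_le_sum (f := fun i' => ∑ j' ∈ Sᶜ, blowCap c p b (Phi c * (N : ℝ) ^ 2) i' j')
          (fun i' _ => Finset.sum_nonneg fun j' _ => hcap.nonneg _ _) hi
      linarith
    have h4 : (S.card : ℝ) * ((N : ℝ) - S.card) ≤ (N : ℝ) ^ 2 := by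
      have a : (S.card : ℝ) ≤ (N : ℝ) := by
        have := Finset.card_le_univ S
        simp only [Fintype.card_fin] at this
        exact_mod_cast this
      have b' : (0 : ℝ) ≤ S.card := Nat.cast_nonneg _
      nlinarith
    calc Phi c * ((S.card : ℝ) * ((N : ℝ) - S.card)) ≤ Phi c * (N : ℝ) ^ 2 :=
          mul_le_mul_of_nonneg_left h4 hP
      _ ≤ _ := h3

theorem blow_step {c : Fin n → Fin n → ℝ} (hn : 2 ≤ n) (hc : IsCapacity c) (hpos : 0 < glVal c)
    (p : Fin N → Fin n) (a b : ℕ) (ha : 1 ≤ a) (hw : ∀ u, a ≤ fib p u ∧ fib p u ≤ b) :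
    ∃ c' : Fin N → Fin N → ℝ, IsCapacity c' ∧ Phi c ≤ Phi c' ∧ 0 < glVal c' ∧
      (a : ℝ) ^ 2 * glVal c' ≤ (b : ℝ) ^ 2 * glVal c := by
  have hw0 : ∀ u, 0 < fib p u := fun u => lt_of_lt_of_le ha (hw u).1
  have hsurj : Function.Surjective p := by
    intro u
    obtain ⟨i, hi⟩ := Finset.card_pos.mp (hw0 u)
    exact ⟨i, (Finset.mem_filter.mp hi).2⟩
  have hnN : n ≤ N := by
    have := Fintype.card_le_of_surjective p hsurj
    simpa using this
  obtain ⟨t, rfl⟩ := Nat.exists_eq_add_of_le hnN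
  have hP := Phi_nonneg hn hc
  have hPpos : 0 < Phi c := lt_of_lt_of_le hpos (glVal_le_Phi hn hc)
  have hM : 0 ≤ Phi c * ((n + t : ℕ) : ℝ) ^ 2 := by positivity
  have hcap := blowCap_isCapacity hc p (b : ℝ) hM
  have hPhi := Phi_blow hn (by omega) hc p b hw0 (fun u => (hw u).2)
  have hpos' := glVal_pos_of_Phi_pos (by omega) hcap (lt_of_lt_of_le hPpos hPhi)
  refine ⟨_, hcap, hPhi, hpos', ?_⟩
  set G := glVal (blowCap c p b (Phi c * ((n + t : ℕ) : ℝ) ^ 2)) with hG
  have hb0 : (0 : ℝ) < (b : ℝ) ^ 2 := by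
    have : 0 < b := lt_of_lt_of_le (hw0 ⟨0, by omega⟩) (hw ⟨0, by omega⟩).2
    have : (0 : ℝ) < b := by exact_mod_cast this
    positivity
  have key : (a : ℝ) ^ 2 * G / (b : ℝ) ^ 2 ≤ glVal c := by
    refine le_glVal hn fun d hd h1 => ?_
    have hd' := negType_pullback hd p
    have h := glVal_mul_le hcap hd'
    have e1 : (a : ℝ) ^ 2 ≤ pairSum (fun i j => d (p i) (p j)) := by
      rw [pairSum_eq_half _ hd'.symm hd'.diag, dbl_comp_fib]
      have : ∑ u, ∑ v, (a : ℝ) ^ 2 * d u v ≤ ∑ u, ∑ v, (fib p u : ℝ) * (fib p v : ℝ) * d u v := by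
        refine Finset.sum_le_sum fun u _ => Finset.sum_le_sum fun v _ => ?_
        refine mul_le_mul_of_nonneg_right ?_ (hd.nonneg _ _)
        have hu : (a : ℝ) ≤ fib p u := by exact_mod_cast (hw u).1
        have hv : (a : ℝ) ≤ fib p v := by exact_mod_cast (hw v).1
        have ha0 : (0 : ℝ) ≤ a := Nat.cast_nonneg _
        nlinarith
      simp only [← Finset.mul_sum] at this
      have h2 := pairSum_eq_half d hd.symm hd.diag
      rw [h1] at h2
      have h3 : ∑ i, ∑ j, d i j = 2 := by linarith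
      rw [h3] at this
      linarith
    have e2 : pairSum (fun i j => blowCap c p b (Phi c * ((n + t : ℕ) : ℝ) ^ 2) i j *
        d (p i) (p j)) = (b : ℝ) ^ 2 * pairSum (fun i j => c i j * d i j) := by
      rw [pairSum_eq_half _ (fun i j => by rw [hcap.symm i j, hd'.symm i j])
        (fun i => by rw [hcap.diag, zero_mul]),
        pairSum_eq_half _ (fun i j => by rw [hc.symm i j, hd.symm i j])
        (fun i => by rw [hc.diag, zero_mul]), dbl_blow c p b _ hw0 d hd.diag]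
      ring
    rw [e2] at h
    rw [div_le_iff₀ hb0]
    have : G * (a : ℝ) ^ 2 ≤ G * pairSum (fun i j => d (p i) (p j)) :=
      mul_le_mul_of_nonneg_left e1 hpos'.le
    linarith
  rw [div_le_iff₀ hb0] at key
  linarith

/-- reduction modulo `n` -/
def modMap (hn : 0 < n) (i : Fin N) : Fin n := ⟨i.1 % n, Nat.mod_lt _ hn⟩

lemma fib_modMap_ge (hn : 0 < n) (k : ℕ) (hk : k * n ≤ N) (u : Fin n) :
    k ≤ fib (modMap (N := N) hn) u := by
  have hlt : ∀ t : Fin k, u.1 + t.1 * n < N := by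
    intro t
    have h1 : (t.1 + 1) * n ≤ k * n := Nat.mul_le_mul_right _ t.2
    have h2 := u.2
    nlinarith
  have := Finset.card_le_card_of_injOn (s := (univ : Finset (Fin k)))
    (t := univ.filter fun i => modMap (N := N) hn i = u)
    (fun t => ⟨u.1 + t.1 * n, hlt t⟩)
    (by
      intro t _
      refine Finset.mem_coe.mpr (Finset.mem_filter.mpr ⟨Finset.mem_univ _, ?_⟩)
      apply Fin.ext
      simp [modMap, Nat.add_mul_mod_self_right, Nat.mod_eq_of_lt u.2])
    (by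
      intro t _ t' _ h
      have h' : u.1 + t.1 * n = u.1 + t'.1 * n := by simpa using congrArg Fin.val h
      have : t.1 * n = t'.1 * n := by omega
      exact Fin.ext (Nat.eq_of_mul_eq_mul_right hn this))
  simpa [fib] using this

lemma fib_modMap_le (hn : 0 < n) (k : ℕ) (hk : N ≤ (k + 1) * n) (u : Fin n) :
    fib (modMap (N := N) hn) u ≤ k + 1 := by
  have hlt : ∀ i : Fin N, i.1 / n < k + 1 := by
    intro i
    apply Nat.div_lt_of_lt_mul
    have := i.2
    nlinarith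
  have := Finset.card_le_card_of_injOn (s := univ.filter fun i => modMap (N := N) hn i = u)
    (t := (univ : Finset (Fin (k + 1))))
    (fun i => ⟨i.1 / n, hlt i⟩)
    (by intro i _; simp)
    (by
      intro i hi j hj h
      have hi' : i.1 % n = u.1 := by
        have := (Finset.mem_filter.mp (Finset.mem_coe.mp hi)).2
        simpa [modMap] using congrArg Fin.val this
      have hj' : j.1 % n = u.1 := by
        have := (Finset.mem_filter.mp (Finset.mem_coe.mp hj)).2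
        simpa [modMap] using congrArg Fin.val this
      have h' : i.1 / n = j.1 / n := by simpa using congrArg Fin.val h
      apply Fin.ext
      rw [← Nat.div_add_mod i.1 n, ← Nat.div_add_mod j.1 n, hi', hj', h'])
  simpa [fib] using this

lemma quasi_monotone_gen {a b : ℕ} (hn : 2 ≤ n) (ha : 1 ≤ a) (h1 : a * n ≤ N) (h2 : N ≤ b * n) :
    ((a : ℝ) / (b : ℝ)) ^ 2 * sSup (gapSet n) ≤ sSup (gapSet N) := by
  have hN : 2 ≤ N := by nlinarith
  have hb : 1 ≤ b := by
    by_contra h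
    have : b = 0 := by omega
    subst this
    omega
  obtain ⟨k, rfl⟩ : ∃ k, b = k + 1 := ⟨b - 1, by omega⟩
  have ha0 : (0 : ℝ) < a := by exact_mod_cast ha
  have hb0 : (0 : ℝ) < ((k + 1 : ℕ) : ℝ) := by positivity
  have hq : (0 : ℝ) < ((a : ℝ) / ((k + 1 : ℕ) : ℝ)) ^ 2 := by positivity
  rw [mul_comm, ← le_div_iff₀ hq]
  refine (isLUB_gapSet hn).2 ?_
  rintro r ⟨c, hc, hpos, rfl⟩
  obtain ⟨c', hc', hPhi, hpos', hle⟩ := blow_step hn hc hpos (modMap (N := N) (by omega)) a (k + 1) ha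
    (fun u => ⟨fib_modMap_ge _ a h1 u, fib_modMap_le _ k h2 u⟩)
  rw [le_div_iff₀ hq]
  refine le_trans ?_ ((isLUB_gapSet hN).1 ⟨c', hc', hpos', rfl⟩)
  rw [le_div_iff₀ hpos']
  have hP : 0 ≤ Phi c := Phi_nonneg hn hc
  have e : Phi c / glVal c * ((a : ℝ) / ((k + 1 : ℕ) : ℝ)) ^ 2 * glVal c' =
      Phi c / (glVal c * ((k + 1 : ℕ) : ℝ) ^ 2) * ((a : ℝ) ^ 2 * glVal c') := by
    field_simp
  rw [e]
  calc Phi c / (glVal c * ((k + 1 : ℕ) : ℝ) ^ 2) * ((a : ℝ) ^ 2 * glVal c')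
      ≤ Phi c / (glVal c * ((k + 1 : ℕ) : ℝ) ^ 2) * (((k + 1 : ℕ) : ℝ) ^ 2 * glVal c) :=
        mul_le_mul_of_nonneg_left hle (by positivity)
    _ = Phi c := by field_simp
    _ ≤ Phi c' := hPhi

lemma one_le_gap (hn : 2 ≤ n) : 1 ≤ sSup (gapSet n) := by
  obtain ⟨r, hr⟩ := gapSet_nonempty hn
  exact (one_le_of_mem_gapSet hn hr).trans ((isLUB_gapSet hn).1 hr)

lemma gap_le_half (hn : 2 ≤ n) : sSup (gapSet n) ≤ (n : ℝ) / 2 :=
  (isLUB_gapSet hn).2 fun _ hr => le_half_of_mem_gapSet hn hr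

/-- the monotone quantity -/
lemma mono_quantity (hn : 2 ≤ n) :
    (n : ℝ) * ((n : ℝ) + 1) * (1 - 1 / sSup (gapSet n)) ≤
      ((n : ℝ) + 1) * ((n : ℝ) + 2) * (1 - 1 / sSup (gapSet (n + 1))) := by
  have h := near_monotone hn
  have hg := one_le_gap hn
  have hG := one_le_gap (n := n + 1) (by omega)
  set g := sSup (gapSet n)
  set G := sSup (gapSet (n + 1))
  have hn0 : (0 : ℝ) < n := by exact_mod_cast (by omega : 0 < n)
  rw [div_le_iff₀ (by positivity)] at h
  have hg0 : 0 < g := by linarith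
  have hG0 : 0 < G := by linarith
  have e1 : (n : ℝ) * ((n : ℝ) + 1) * (1 - 1 / g) = (n : ℝ) * ((n : ℝ) + 1) * (g - 1) / g := by
    field_simp
  have e2 : ((n : ℝ) + 1) * ((n : ℝ) + 2) * (1 - 1 / G) =
      ((n : ℝ) + 1) * ((n : ℝ) + 2) * (G - 1) / G := by
    field_simp
  rw [e1, e2, div_le_div_iff₀ hg0 hG0]
  have h3 : (n : ℝ) * (g - 1) * G ≤ ((n : ℝ) + 2) * (G - 1) * g := by nlinarith
  have h4 : (0 : ℝ) ≤ (n : ℝ) + 1 := by positivity
  nlinarith [mul_le_mul_of_nonneg_left h3 h4]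

lemma mono_quantity_add (hn : 2 ≤ n) (r : ℕ) :
    (n : ℝ) * ((n : ℝ) + 1) * (1 - 1 / sSup (gapSet n)) ≤
      ((n + r : ℕ) : ℝ) * (((n + r : ℕ) : ℝ) + 1) * (1 - 1 / sSup (gapSet (n + r))) := by
  induction r with
  | zero => simp
  | succ r ih =>
    refine ih.trans ?_
    have := mono_quantity (n := n + r) (by omega)
    have e : ((n + (r + 1) : ℕ) : ℝ) = ((n + r : ℕ) : ℝ) + 1 := by push_cast; ring
    rw [e]
    have e' : n + (r + 1) = n + r + 1 := rfl
    rw [e']
    linarith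

lemma gap_five : 10 / 9 ≤ sSup (gapSet 5) := by
  have := lower_gap 5 le_rfl
  norm_num at this
  linarith

lemma uniform_lower (hN : 5 ≤ N) : 30 / 29 ≤ sSup (gapSet N) := by
  set k := N / 5 with hk
  set r := N % 5 with hr
  have hN' : N = 5 * k + r := (Nat.div_add_mod N 5).symm
  have hk1 : 1 ≤ k := by omega
  have hr4 : r ≤ 4 := by omega
  have h1 : 10 / 9 ≤ sSup (gapSet (5 * k)) := by
    have := quasi_monotone_gen (n := 5) (N := 5 * k) (a := k) (b := k) (by norm_num) hk1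
      (by omega) (by omega)
    have hk0 : (k : ℝ) ≠ 0 := by exact_mod_cast (by omega : k ≠ 0)
    rw [div_self hk0, one_pow, one_mul] at this
    exact gap_five.trans this
  have h2 := mono_quantity_add (n := 5 * k) (by omega) r
  rw [← hN'] at h2
  have hg := one_le_gap (n := N) (by omega)
  set g := sSup (gapSet N)
  set g5 := sSup (gapSet (5 * k))
  have hkR : (1 : ℝ) ≤ k := by exact_mod_cast hk1
  have hNR : (N : ℝ) ≤ 5 * k + 4 := by
    have : N ≤ 5 * k + 4 := by omega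
    exact_mod_cast this
  have hN0 : (5 : ℝ) ≤ N := by exact_mod_cast hN
  have h3 : 1 / 10 ≤ 1 - 1 / g5 := by
    have : 1 / g5 ≤ 9 / 10 := by
      rw [div_le_iff₀ (by linarith)]
      linarith
    linarith
  push_cast at h2
  have h4 : (5 * (k : ℝ)) * (5 * (k : ℝ) + 1) * (1 / 10) ≤ (N : ℝ) * ((N : ℝ) + 1) * (1 - 1 / g) := by
    refine le_trans ?_ h2
    exact mul_le_mul_of_nonneg_left h3 (by positivity)
  have h5 : (1 : ℝ) / 30 ≤ 1 - 1 / g := by
    by_contra hcon
    rw [not_le] at hcon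
    have h6 : (N : ℝ) * ((N : ℝ) + 1) * (1 - 1 / g) ≤ (N : ℝ) * ((N : ℝ) + 1) * (1 / 30) :=
      mul_le_mul_of_nonneg_left hcon.le (by positivity)
    have h7 : (N : ℝ) * ((N : ℝ) + 1) ≤ (5 * (k : ℝ) + 4) * (5 * (k : ℝ) + 5) := by nlinarith
    have h8 : (5 * (k : ℝ) + 4) * (5 * (k : ℝ) + 5) ≤ 3 * ((5 * (k : ℝ)) * (5 * (k : ℝ) + 1)) := by
      nlinarith
    have h9 : (N : ℝ) * ((N : ℝ) + 1) * (1 - 1 / g) < (N : ℝ) * ((N : ℝ) + 1) * (1 / 30) :=
      mul_lt_mul_of_pos_left hcon (by positivity)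
    nlinarith
  have h6 : 1 / g ≤ 29 / 30 := by linarith
  rw [div_le_iff₀ (by linarith)] at h6
  linarith

end Vale.Agent.P318
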