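import Vale.Agent.P318.Basic2

namespace Vale.Agent.P318

open Finset

variable {n : ℕ} {c : Fin n → Fin n → ℝ}

lemma Phi_mul_le' (hc : IsCapacity c) (S : Finset (Fin n)) :
    Phi c * ((S.card : ℝ) * ((n : ℝ) - S.card)) ≤ cutCap c S := by
  by_cases h1 : S.Nonempty
  · by_cases h2 : S = univ
    · subst h2
      simp [cutCap]
    · exact Phi_mul_le hc h1 h2
  · rw [Finset.not_nonempty_iff_eq_empty] at h1
    subst h1
    simp [cutCap]

lemma line_bound (hn : 2 ≤ n) (hc : IsCapacity c) : ∀ (k : ℕ) (f : Fin n → ℝ),
    (univ.image f).card ≤ k →
    Phi c * pairSum (fun i j => |f i - f j|) ≤ pairSum (fun i j => c i j * |f i - f j|) := by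
  intro k
  induction k with
  | zero =>
    intro f hf
    have : (univ.image f) = ∅ := Finset.card_eq_zero.mp (Nat.le_zero.mp hf)
    have hne : (univ.image f).Nonempty := ⟨f ⟨0, by omega⟩, Finset.mem_image_of_mem f (Finset.mem_univ _)⟩
    rw [this] at hne
    exact absurd hne Finset.not_nonempty_empty
  | succ k ih =>
    intro f hf
    have hne : (univ.image f).Nonempty := ⟨f ⟨0, by omega⟩, Finset.mem_image_of_mem f (Finset.mem_univ _)⟩
    set a := (univ.image f).min' hne with ha
    have ha_mem : a ∈ univ.image f := Finset.min'_mem _ _
    have ha_le : ∀ i, a ≤ f i := fun i =>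
      Finset.min'_le _ _ (Finset.mem_image_of_mem f (Finset.mem_univ _))
    by_cases hE : ((univ.image f).erase a).Nonempty
    · set b := ((univ.image f).erase a).min' hE with hb
      have hb_mem : b ∈ (univ.image f).erase a := Finset.min'_mem _ _
      have hab : a < b := by
        have h1 : b ≠ a := (Finset.mem_erase.mp hb_mem).1
        have h2 : a ≤ b := Finset.min'_le _ _ (Finset.mem_erase.mp hb_mem).2
        exact lt_of_le_of_ne h2 (Ne.symm h1)
      have hb_le : ∀ i, f i ≠ a → b ≤ f i := fun i hi =>
        Finset.min'_le _ _ (Finset.mem_erase.mpr ⟨hi, Finset.mem_image_of_mem f (Finset.mem_univ _)⟩)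
      set S : Finset (Fin n) := univ.filter (fun i => f i = a) with hS
      set f' : Fin n → ℝ := fun i => max (f i) b with hf'
      have himg : univ.image f' ⊆ (univ.image f).erase a := by
        intro y hy
        obtain ⟨i, _, rfl⟩ := Finset.mem_image.mp hy
        by_cases hi : f i = a
        · have : f' i = b := by simp [hf', hi, hab.le]
          rw [this]; exact hb_mem
        · have : f' i = f i := by simp [hf', hb_le i hi]
          rw [this]
          exact Finset.mem_erase.mpr ⟨hi, Finset.mem_image_of_mem f (Finset.mem_univ _)⟩
      have hcard : (univ.image f').card ≤ k := by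
        have h1 := Finset.card_le_card himg
        rw [Finset.card_erase_of_mem ha_mem] at h1
        omega
      have hid : ∀ i j, |f i - f j| = |f' i - f' j| + (b - a) * cutMet S i j := by
        intro i j
        by_cases hi : f i = a <;> by_cases hj : f j = a
        · have e1 : f' i = b := by simp [hf', hi, hab.le]
          have e2 : f' j = b := by simp [hf', hj, hab.le]
          simp [e1, e2, hi, hj, cutMet, hS]
        · have e1 : f' i = b := by simp [hf', hi, hab.le]
          have e2 : f' j = f j := by simp [hf', hb_le j hj]
          have h3 := hb_le j hj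
          rw [e1, e2, hi]
          simp only [cutMet, hS, Finset.mem_filter, Finset.mem_univ, true_and, hi, hj]
          rw [abs_of_nonpos (by linarith), abs_of_nonpos (by linarith)]
          simp
        · have e1 : f' i = f i := by simp [hf', hb_le i hi]
          have e2 : f' j = b := by simp [hf', hj, hab.le]
          have h3 := hb_le i hi
          rw [e1, e2, hj]
          simp only [cutMet, hS, Finset.mem_filter, Finset.mem_univ, true_and, hi, hj]
          rw [abs_of_nonneg (by linarith), abs_of_nonneg (by linarith)]
          simp
        · have e1 : f' i = f i := by simp [hf', hb_le i hi]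
          have e2 : f' j = f j := by simp [hf', hb_le j hj]
          simp [e1, e2, hi, hj, cutMet, hS]
      have e1 : pairSum (fun i j => |f i - f j|) =
          pairSum (fun i j => |f' i - f' j|) + (b - a) * pairSum (cutMet S) := by
        rw [← pairSum_smul, ← pairSum_add]
        congr 1
        funext i j
        exact hid i j
      have e2 : pairSum (fun i j => c i j * |f i - f j|) =
          pairSum (fun i j => c i j * |f' i - f' j|) + (b - a) * cutCap c S := by
        rw [← pairSum_mul_cutMet c hc.symm, ← pairSum_smul, ← pairSum_add]
        congr 1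
        funext i j
        rw [hid i j]; ring
      rw [e1, e2, pairSum_cutMet]
      have h1 := ih f' hcard
      have h2 := Phi_mul_le' hc S
      have h3 : 0 ≤ b - a := by linarith
      nlinarith
    · rw [Finset.not_nonempty_iff_eq_empty] at hE
      have hconst : ∀ i, f i = a := by
        intro i
        by_contra hi
        have : f i ∈ (univ.image f).erase a :=
          Finset.mem_erase.mpr ⟨hi, Finset.mem_image_of_mem f (Finset.mem_univ _)⟩
        rw [hE] at this
        exact absurd this (Finset.notMem_empty _)
      have z1 : (fun i j => |f i - f j|) = fun _ _ => (0 : ℝ) := by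
        funext i j; simp [hconst]
      have z2 : (fun i j => c i j * |f i - f j|) = fun _ _ => (0 : ℝ) := by
        funext i j; simp [hconst]
      rw [z1, z2]
      simp [pairSum]

/-- crude bound: the sparsest cut value is at most `n / 2` times the relaxation value -/
theorem Phi_le_mul_glVal (hn : 2 ≤ n) (hc : IsCapacity c) :
    Phi c ≤ (n : ℝ) / 2 * glVal c := by
  have hn0 : (0 : ℝ) < n := by exact_mod_cast (by omega : 0 < n)
  have key : 2 / (n : ℝ) * Phi c ≤ glVal c := by
    refine le_glVal hn fun d hd h1 => ?_
    have hP := Phi_nonneg hn hc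
    -- for each base point p
    have hp : ∀ p : Fin n, Phi c * ∑ j, d p j ≤ pairSum (fun i j => c i j * d i j) := by
      intro p
      have h := line_bound hn hc _ (fun i => d p i) le_rfl
      have hl : ∀ i j, |d p i - d p j| ≤ d i j := by
        intro i j
        rw [abs_le]
        constructor
        · have := hd.tri p i j; linarith
        · have := hd.tri p j i; rw [hd.symm j i] at this; linarith
      have h2 : pairSum (fun i j => c i j * |d p i - d p j|) ≤ pairSum (fun i j => c i j * d i j) :=
        pairSum_le _ _ fun i j => mul_le_mul_of_nonneg_left (hl i j) (hc.nonneg i j)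
      have h3 : ∑ j, d p j ≤ pairSum (fun i j => |d p i - d p j|) := by
        rw [pairSum_eq_half _ (fun i j => abs_sub_comm _ _) (fun i => by simp)]
        have a1 : ∑ j, d p j ≤ ∑ j, |d p p - d p j| := by
          refine Finset.sum_le_sum fun j _ => ?_
          rw [hd.diag p, zero_sub, abs_neg]
          exact le_abs_self _
        have a2 : ∑ j, d p j ≤ ∑ i, |d p i - d p p| := by
          refine Finset.sum_le_sum fun j _ => ?_
          rw [hd.diag p, sub_zero]
          exact le_abs_self _
        -- the double sum dominates row p plus column p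
        have a3 : ∑ j, |d p p - d p j| + ∑ i, |d p i - d p p| ≤ ∑ i, ∑ j, |d p i - d p j| := by
          have r1 : ∑ i, ∑ j, |d p i - d p j| =
              ∑ j, |d p p - d p j| + ∑ i ∈ univ.erase p, ∑ j, |d p i - d p j| := by
            exact (Finset.add_sum_erase _ (fun i => ∑ j, |d p i - d p j|) (Finset.mem_univ p)).symm
          have r2 : ∑ i, |d p i - d p p| = |d p p - d p p| + ∑ i ∈ univ.erase p, |d p i - d p p| := by
            exact (Finset.add_sum_erase _ (fun i => |d p i - d p p|) (Finset.mem_univ p)).symm
          have r3 : ∑ i ∈ univ.erase p, |d p i - d p p| ≤ ∑ i ∈ univ.erase p, ∑ j, |d p i - d p j| := by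
            refine Finset.sum_le_sum fun i _ => ?_
            exact Finset.single_le_sum (f := fun j => |d p i - d p j|)
              (fun j _ => abs_nonneg _) (Finset.mem_univ p)
          rw [r1, r2]
          simp only [sub_self, abs_zero, zero_add]
          linarith
        linarith
      calc Phi c * ∑ j, d p j ≤ Phi c * pairSum (fun i j => |d p i - d p j|) :=
            mul_le_mul_of_nonneg_left h3 hP
        _ ≤ _ := h
        _ ≤ _ := h2
    have hsum : ∑ p : Fin n, Phi c * ∑ j, d p j ≤
        ∑ _p : Fin n, pairSum (fun i j => c i j * d i j) := Finset.sum_le_sum fun p _ => hp p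
    rw [← Finset.mul_sum] at hsum
    have e : ∑ p, ∑ j, d p j = 2 := by
      have := pairSum_eq_half d hd.symm hd.diag
      rw [h1] at this
      linarith
    rw [e] at hsum
    simp only [Finset.sum_const, Finset.card_univ, Fintype.card_fin, nsmul_eq_mul] at hsum
    rw [div_mul_eq_mul_div, div_le_iff₀ hn0]
    linarith
  calc Phi c = (n : ℝ) / 2 * (2 / (n : ℝ) * Phi c) := by field_simp
    _ ≤ _ := mul_le_mul_of_nonneg_left key (by positivity)

lemma glVal_pos_of_Phi_pos (hn : 2 ≤ n) (hc : IsCapacity c) (h : 0 < Phi c) : 0 < glVal c := by
  have h1 := Phi_le_mul_glVal hn hc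
  have hn0 : (0 : ℝ) < n := by exact_mod_cast (by omega : 0 < n)
  by_contra h2
  rw [not_lt] at h2
  have : (n : ℝ) / 2 * glVal c ≤ 0 := mul_nonpos_of_nonneg_of_nonpos (by positivity) h2
  linarith

end Vale.Agent.P318
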