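import Mathlib

namespace Vale.Agent.P318

open Finset

/-- Capacities on the vertex set `Fin n`: symmetric, nonnegative, zero on the diagonal. -/
structure IsCapacity {n : ℕ} (c : Fin n → Fin n → ℝ) : Prop where
  symm : ∀ i j, c i j = c j i
  nonneg : ∀ i j, 0 ≤ c i j
  diag : ∀ i, c i i = 0

/-- The sum of `w i j` over all pairs `i < j`. -/
noncomputable def pairSum {n : ℕ} (w : Fin n → Fin n → ℝ) : ℝ :=
  ∑ i, ∑ j, if i < j then w i j else 0

/-- The ratio (capacity across the cut) / (`|S| (n - |S|)`). -/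
noncomputable def cutRatio {n : ℕ} (c : Fin n → Fin n → ℝ) (S : Finset (Fin n)) : ℝ :=
  (∑ i ∈ S, ∑ j ∈ Sᶜ, c i j) / ((S.card : ℝ) * ((n : ℝ) - (S.card : ℝ)))

/-- The uniform sparsest cut value: minimum of the ratio over nonempty proper subsets. -/
noncomputable def Phi {n : ℕ} (c : Fin n → Fin n → ℝ) : ℝ :=
  sInf {r | ∃ S : Finset (Fin n), S.Nonempty ∧ S ≠ univ ∧ r = cutRatio c S}

/-- Negative-type semimetrics: squared Euclidean distances of points of `ℝ^n`
satisfying all triangle inequalities. -/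
def IsNegTypeSemimetric {n : ℕ} (d : Fin n → Fin n → ℝ) : Prop :=
  (∃ x : Fin n → EuclideanSpace ℝ (Fin n), ∀ i j, d i j = ‖x i - x j‖ ^ 2) ∧
    ∀ i j k, d i k ≤ d i j + d j k

/-- The value of the Goemans-Linial relaxation. -/
noncomputable def glVal {n : ℕ} (c : Fin n → Fin n → ℝ) : ℝ :=
  sInf {r | ∃ d : Fin n → Fin n → ℝ, IsNegTypeSemimetric d ∧ pairSum d = 1 ∧
    r = pairSum (fun i j => c i j * d i j)}

/-- The set of all ratios `Phi c / glVal c` over capacities on `n` vertices with `glVal c > 0`. -/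
def gapSet (n : ℕ) : Set ℝ :=
  {r | ∃ c : Fin n → Fin n → ℝ, IsCapacity c ∧ 0 < glVal c ∧ r = Phi c / glVal c}

/-- The integrality gap `g(n)`, as a supremum in the extended reals. -/
noncomputable def gap (n : ℕ) : EReal :=
  sSup ((fun r : ℝ => (r : EReal)) '' gapSet n)

end Vale.Agent.P318
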