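import Vale.Agent.P318.Crude

namespace Vale.Agent.P318

open Finset

variable {n : ℕ}

lemma negType_pullback {t : ℕ} {d : Fin n → Fin n → ℝ} (hd : IsNegTypeSemimetric d)
    (p : Fin (n + t) → Fin n) : IsNegTypeSemimetric (fun i j => d (p i) (p j)) := by
  obtain ⟨⟨x, hx⟩, ht⟩ := hd
  refine ⟨⟨fun i => WithLp.toLp 2 (Fin.append (x (p i)).ofLp (fun _ => (0 : ℝ))), fun i j => ?_⟩,
    fun i j k => ht _ _ _⟩
  show d (p i) (p j) = _
  rw [hx, EuclideanSpace.norm_sq_eq, EuclideanSpace.norm_sq_eq, Fin.sum_univ_add]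
  simp

/-- collapse the last vertex onto `v` -/
def proj (v : Fin n) (i : Fin (n + 1)) : Fin n :=
  Fin.lastCases (motive := fun _ => Fin n) v (fun i' => i') i

@[simp] lemma proj_last (v : Fin n) : proj v (Fin.last n) = v := by simp [proj]

@[simp] lemma proj_castSucc (v i : Fin n) : proj v i.castSucc = i := by simp [proj]

/-- capacities after adding a copy of the vertex `v` -/
noncomputable def dupCap (c : Fin n → Fin n → ℝ) (v : Fin n) (P M : ℝ) (i j : Fin (n + 1)) : ℝ :=
  Fin.lastCases (motive := fun _ => ℝ)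
    (Fin.lastCases (motive := fun _ => ℝ) 0 (fun j' => if j' = v then M else P) j)
    (fun i' => Fin.lastCases (motive := fun _ => ℝ) (if i' = v then M else P)
      (fun j' => c i' j') j) i

@[simp] lemma dupCap_cc (c : Fin n → Fin n → ℝ) (v : Fin n) (P M : ℝ) (i j : Fin n) :
    dupCap c v P M i.castSucc j.castSucc = c i j := by simp [dupCap]

@[simp] lemma dupCap_cl (c : Fin n → Fin n → ℝ) (v : Fin n) (P M : ℝ) (i : Fin n) :
    dupCap c v P M i.castSucc (Fin.last n) = if i = v then M else P := by simp [dupCap]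

@[simp] lemma dupCap_lc (c : Fin n → Fin n → ℝ) (v : Fin n) (P M : ℝ) (j : Fin n) :
    dupCap c v P M (Fin.last n) j.castSucc = if j = v then M else P := by simp [dupCap]

@[simp] lemma dupCap_ll (c : Fin n → Fin n → ℝ) (v : Fin n) (P M : ℝ) :
    dupCap c v P M (Fin.last n) (Fin.last n) = 0 := by simp [dupCap]

lemma dupCap_isCapacity {c : Fin n → Fin n → ℝ} (hc : IsCapacity c) (v : Fin n) {P M : ℝ}
    (hP : 0 ≤ P) (hM : 0 ≤ M) : IsCapacity (dupCap c v P M) where
  symm i j := by
    induction i using Fin.lastCases <;> induction j using Fin.lastCases <;> simp [hc.symm _ _]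
  nonneg i j := by
    induction i using Fin.lastCases <;> induction j using Fin.lastCases <;> simp
    · split_ifs <;> assumption
    · split_ifs <;> assumption
    · exact hc.nonneg _ _
  diag i := by
    induction i using Fin.lastCases <;> simp [hc.diag]

lemma dbl_split (w : Fin (n + 1) → Fin (n + 1) → ℝ) :
    ∑ i, ∑ j, w i j = ∑ i : Fin n, ∑ j : Fin n, w i.castSucc j.castSucc +
      ∑ i : Fin n, w i.castSucc (Fin.last n) + ∑ j : Fin n, w (Fin.last n) j.castSucc +
      w (Fin.last n) (Fin.last n) := by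
  simp only [Fin.sum_univ_castSucc, Finset.sum_add_distrib]
  ring

lemma dbl_dup (c : Fin n → Fin n → ℝ) (v : Fin n) (P M : ℝ) (e : Fin (n + 1) → Fin (n + 1) → ℝ)
    (hes : ∀ i j, e i j = e j i) :
    ∑ i, ∑ j, dupCap c v P M i j * e i j =
      ∑ i : Fin n, ∑ j : Fin n, c i j * e i.castSucc j.castSucc +
        2 * ∑ i : Fin n, (if i = v then M else P) * e i.castSucc (Fin.last n) := by
  rw [dbl_split]
  simp only [dupCap_cc, dupCap_cl, dupCap_lc, dupCap_ll, zero_mul, add_zero]
  have : ∑ j : Fin n, (if j = v then M else P) * e (Fin.last n) j.castSucc =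
      ∑ i : Fin n, (if i = v then M else P) * e i.castSucc (Fin.last n) :=
    Finset.sum_congr rfl fun i _ => by rw [hes]
  rw [this]; ring

lemma sum_ite_mul_of_zero (v : Fin n) (P M : ℝ) (f : Fin n → ℝ) (hf : f v = 0) :
    ∑ i : Fin n, (if i = v then M else P) * f i = P * ∑ i, f i := by
  rw [Finset.mul_sum]
  refine Finset.sum_congr rfl fun i _ => ?_
  split_ifs with h
  · subst h; simp [hf]
  · rfl

/-- the trace of a cut on the old vertices -/
def oldPart (S : Finset (Fin (n + 1))) : Finset (Fin n) := univ.filter fun i => i.castSucc ∈ S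

lemma cutMet_cc (S : Finset (Fin (n + 1))) (i j : Fin n) :
    cutMet S i.castSucc j.castSucc = cutMet (oldPart S) i j := by
  simp [cutMet, oldPart]

lemma pairSum_cutMet_succ (S : Finset (Fin (n + 1))) :
    pairSum (cutMet S) = pairSum (cutMet (oldPart S)) +
      ∑ i : Fin n, cutMet S i.castSucc (Fin.last n) := by
  rw [pairSum_eq_half _ (cutMet_symm S) (cutMet_diag S),
    pairSum_eq_half _ (cutMet_symm _) (cutMet_diag _), dbl_split]
  simp only [cutMet_cc, cutMet_diag, add_zero]
  have : ∑ j : Fin n, cutMet S (Fin.last n) j.castSucc =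
      ∑ i : Fin n, cutMet S i.castSucc (Fin.last n) :=
    Finset.sum_congr rfl fun i _ => cutMet_symm _ _ _
  rw [this]; ring

lemma cutCap_dup {c : Fin n → Fin n → ℝ} (hc : IsCapacity c) (v : Fin n) {P M : ℝ}
    (hP : 0 ≤ P) (hM : 0 ≤ M) (S : Finset (Fin (n + 1))) :
    cutCap (dupCap c v P M) S = cutCap c (oldPart S) +
      ∑ i : Fin n, (if i = v then M else P) * cutMet S i.castSucc (Fin.last n) := by
  have h1 := dblSum_mul_cutMet (dupCap c v P M) (dupCap_isCapacity hc v hP hM).symm S
  rw [dbl_dup c v P M _ (cutMet_symm S)] at h1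
  simp only [cutMet_cc] at h1
  rw [dblSum_mul_cutMet c hc.symm] at h1
  linarith

lemma Phi_dup {c : Fin n → Fin n → ℝ} (hn : 2 ≤ n) (hc : IsCapacity c) (v : Fin n) :
    Phi c ≤ Phi (dupCap c v (Phi c) (Phi c * ((n : ℝ) + 1) ^ 2)) := by
  have hP := Phi_nonneg hn hc
  have hM : 0 ≤ Phi c * ((n : ℝ) + 1) ^ 2 := by positivity
  refine le_Phi (by omega) fun S h1 h2 => ?_
  rw [cutRatio_eq, le_div_iff₀ (card_pos_of S h1 h2), cutCap_dup hc v hP hM, ← pairSum_cutMet]
  by_cases hv : (v.castSucc ∈ S ↔ Fin.last n ∈ S)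
  · have e : ∀ i : Fin n, cutMet S i.castSucc (Fin.last n) = cutMet (oldPart S) i v := by
      intro i
      simp [cutMet, oldPart, hv]
    simp only [e]
    rw [sum_ite_mul_of_zero v _ _ (fun i => cutMet (oldPart S) i v) (cutMet_diag _ v),
      pairSum_cutMet_succ]
    simp only [e]
    have := Phi_mul_le' hc (oldPart S)
    rw [← pairSum_cutMet] at this
    nlinarith
  · have e : cutMet S v.castSucc (Fin.last n) = 1 := by simp [cutMet, hv]
    have h3 : Phi c * ((n : ℝ) + 1) ^ 2 ≤
        ∑ i : Fin n, (if i = v then Phi c * ((n : ℝ) + 1) ^ 2 else Phi c) *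
          cutMet S i.castSucc (Fin.last n) := by
      have := Finset.single_le_sum (f := fun i : Fin n =>
        (if i = v then Phi c * ((n : ℝ) + 1) ^ 2 else Phi c) * cutMet S i.castSucc (Fin.last n))
        (fun i _ => by
          refine mul_nonneg ?_ (cutMet_nonneg _ _ _)
          split_ifs <;> assumption) (Finset.mem_univ v)
      simpa [e] using this
    have h4 : pairSum (cutMet S) ≤ ((n : ℝ) + 1) ^ 2 := by
      rw [pairSum_cutMet]
      have a : (S.card : ℝ) ≤ (n : ℝ) + 1 := by
        have := Finset.card_le_univ S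
        simp only [Fintype.card_fin] at this
        exact_mod_cast this
      have b : (0 : ℝ) ≤ S.card := Nat.cast_nonneg _
      push_cast
      nlinarith
    have h5 := cutCap_nonneg hc (oldPart S)
    nlinarith

lemma glVal_dup_mul_le {c : Fin n → Fin n → ℝ} (hc : IsCapacity c) (v : Fin n) {P M : ℝ}
    (hP : 0 ≤ P) (hM : 0 ≤ M) {d : Fin n → Fin n → ℝ} (hd : IsNegTypeSemimetric d) :
    glVal (dupCap c v P M) * (pairSum d + ∑ i, d i v) ≤
      pairSum (fun i j => c i j * d i j) + P * ∑ i, d i v := by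
  have hd' := negType_pullback (t := 1) hd (proj v)
  have h := glVal_mul_le (dupCap_isCapacity hc v hP hM) hd'
  have e1 : pairSum (fun i j : Fin (n + 1) => d (proj v i) (proj v j)) =
      pairSum d + ∑ i, d i v := by
    rw [pairSum_eq_half _ hd'.symm hd'.diag, pairSum_eq_half _ hd.symm hd.diag, dbl_split]
    simp only [proj_castSucc, proj_last, hd.diag, add_zero]
    have : ∑ j, d v j = ∑ i, d i v := Finset.sum_congr rfl fun i _ => hd.symm _ _
    rw [this]; ring
  have e2 : pairSum (fun i j : Fin (n + 1) => dupCap c v P M i j * d (proj v i) (proj v j)) =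
      pairSum (fun i j => c i j * d i j) + P * ∑ i, d i v := by
    have hcap := dupCap_isCapacity hc v hP hM
    rw [pairSum_eq_half _ (fun i j => by rw [hcap.symm i j, hd'.symm i j])
      (fun i => by rw [hcap.diag, zero_mul]),
      pairSum_eq_half _ (fun i j => by rw [hc.symm i j, hd.symm i j])
      (fun i => by rw [hc.diag, zero_mul]), dbl_dup c v P M _ hd'.symm]
    simp only [proj_castSucc, proj_last]
    rw [sum_ite_mul_of_zero v _ _ (fun i => d i v) (hd.diag v)]
    ring
  rw [e1, e2] at h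
  exact h

theorem dup_step {c : Fin n → Fin n → ℝ} (hn : 2 ≤ n) (hc : IsCapacity c) (hpos : 0 < glVal c) :
    ∃ c' : Fin (n + 1) → Fin (n + 1) → ℝ, IsCapacity c' ∧ Phi c ≤ Phi c' ∧ 0 < glVal c' ∧
      glVal c' ≤ ((n : ℝ) * glVal c + 2 * Phi c) / ((n : ℝ) + 2) := by
  have hP := Phi_nonneg hn hc
  have hPpos : 0 < Phi c := lt_of_lt_of_le hpos (glVal_le_Phi hn hc)
  have hM : 0 ≤ Phi c * ((n : ℝ) + 1) ^ 2 := by positivity
  have hn0 : (0 : ℝ) < n := by exact_mod_cast (by omega : 0 < n)
  have : Nonempty (Fin n) := ⟨⟨0, by omega⟩⟩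
  obtain ⟨v0, _, hv0⟩ := Finset.exists_min_image (univ : Finset (Fin n))
    (fun v => glVal (dupCap c v (Phi c) (Phi c * ((n : ℝ) + 1) ^ 2))) Finset.univ_nonempty
  set G := glVal (dupCap c v0 (Phi c) (Phi c * ((n : ℝ) + 1) ^ 2)) with hG
  have hcap := dupCap_isCapacity hc v0 hP hM
  have hPhi := Phi_dup hn hc v0
  refine ⟨_, hcap, hPhi, glVal_pos_of_Phi_pos (by omega) hcap (lt_of_lt_of_le hPpos hPhi), ?_⟩
  have key : (G * ((n : ℝ) + 2) - 2 * Phi c) / n ≤ glVal c := by
    refine le_glVal hn fun d hd h1 => ?_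
    have hv : ∀ v : Fin n, G * (1 + ∑ i, d i v) ≤
        pairSum (fun i j => c i j * d i j) + Phi c * ∑ i, d i v := by
      intro v
      have h2 := glVal_dup_mul_le hc v hP hM hd
      rw [h1] at h2
      have h3 : 0 ≤ 1 + ∑ i, d i v := by
        have : 0 ≤ ∑ i, d i v := Finset.sum_nonneg fun i _ => hd.nonneg _ _
        linarith
      exact (mul_le_mul_of_nonneg_right (hv0 v (Finset.mem_univ v)) h3).trans h2
    have hsum := Finset.sum_le_sum fun v (_ : v ∈ (univ : Finset (Fin n))) => hv v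
    have e : ∑ v, ∑ i, d i v = 2 := by
      have := pairSum_eq_half d hd.symm hd.diag
      rw [h1, Finset.sum_comm] at this
      linarith
    simp only [← Finset.mul_sum, Finset.sum_add_distrib, Finset.sum_const, Finset.card_univ,
      Fintype.card_fin, nsmul_eq_mul, mul_one, e] at hsum
    rw [div_le_iff₀ hn0]
    linarith
  rw [div_le_iff₀ hn0] at key
  rw [le_div_iff₀ (by positivity)]
  linarith

end Vale.Agent.P318
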