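import Vale.Agent.P318.Small

namespace Vale.Agent.P318

open Finset

/-- adjacency of the complete bipartite graph with sides `{0,1,2}` and `{3,4}` -/
def k23N (i j : Fin 5) : ℕ := if (i.1 < 3 ↔ j.1 < 3) then 0 else 1

noncomputable def k23 (i j : Fin 5) : ℝ := (k23N i j : ℝ)

lemma k23_isCapacity : IsCapacity k23 where
  symm i j := by
    have : ∀ i j : Fin 5, k23N i j = k23N j i := by decide
    simp [k23, this i j]
  nonneg i j := by simp [k23]
  diag i := by
    have : ∀ i : Fin 5, k23N i i = 0 := by decide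
    simp [k23, this i]

lemma k23_cut : ∀ S : Finset (Fin 5),
    S.card * (5 - S.card) ≤ 2 * ∑ i ∈ S, ∑ j ∈ Sᶜ, k23N i j := by decide

lemma half_le_Phi_k23 : 1 / 2 ≤ Phi k23 := by
  refine le_Phi (by norm_num) fun S h1 h2 => ?_
  rw [cutRatio_eq, le_div_iff₀ (card_pos_of S h1 h2)]
  have h := k23_cut S
  have hle : S.card ≤ 5 := by
    have := Finset.card_le_univ S
    simpa using this
  have e : cutCap k23 S = ((∑ i ∈ S, ∑ j ∈ Sᶜ, k23N i j : ℕ) : ℝ) := by
    simp [cutCap, k23]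
  rw [e]
  have h' : ((S.card * (5 - S.card) : ℕ) : ℝ) ≤ ((2 * ∑ i ∈ S, ∑ j ∈ Sᶜ, k23N i j : ℕ) : ℝ) := by
    exact_mod_cast h
  rw [Nat.cast_mul, Nat.cast_sub hle, Nat.cast_mul] at h'
  push_cast at h' ⊢
  linarith

/-- integer coordinates of five points -/
def ptsZ : Fin 5 → Fin 5 → ℤ :=
  ![![3, 0, 0, 0, 0], ![0, 3, 0, 0, 0], ![0, 0, 3, 0, 0], ![0, 0, 0, 0, 0], ![2, 2, 2, 0, 0]]

def dZ (i j : Fin 5) : ℤ := ∑ k, (ptsZ i k - ptsZ j k) ^ 2

noncomputable def d23 (i j : Fin 5) : ℝ := (dZ i j : ℝ)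

lemma d23_negType : IsNegTypeSemimetric d23 := by
  refine ⟨⟨fun i => WithLp.toLp 2 (fun k => (ptsZ i k : ℝ)), fun i j => ?_⟩, fun i j k => ?_⟩
  · rw [EuclideanSpace.norm_sq_eq]
    simp [d23, dZ]
  · have : ∀ i j k : Fin 5, dZ i k ≤ dZ i j + dZ j k := by decide
    have h := this i j k
    unfold d23
    exact_mod_cast h

lemma pairSum_intCast (f : Fin 5 → Fin 5 → ℤ) :
    pairSum (fun i j => (f i j : ℝ)) = ((∑ i, ∑ j, if i < j then f i j else 0 : ℤ) : ℝ) := by
  unfold pairSum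
  push_cast
  rfl

lemma pairSum_d23 : pairSum d23 = 120 := by
  have : (∑ i : Fin 5, ∑ j : Fin 5, if i < j then dZ i j else 0) = 120 := by decide
  unfold d23
  rw [pairSum_intCast, this]
  norm_num

lemma pairSum_k23_d23 : pairSum (fun i j => k23 i j * d23 i j) = 54 := by
  have : (∑ i : Fin 5, ∑ j : Fin 5, if i < j then (k23N i j : ℤ) * dZ i j else 0) = 54 := by
    decide
  have e : (fun i j => k23 i j * d23 i j) = fun i j => (((k23N i j : ℤ) * dZ i j : ℤ) : ℝ) := by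
    funext i j
    simp [k23, d23]
  rw [e, pairSum_intCast, this]
  norm_num

lemma glVal_k23_le : glVal k23 ≤ 9 / 20 := by
  have := glVal_mul_le k23_isCapacity d23_negType
  rw [pairSum_d23, pairSum_k23_d23] at this
  linarith

end Vale.Agent.P318
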