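import Vale.Agent.P318.Dup
import Vale.Agent.P318.K23

namespace Vale.Agent.P318

open Finset

lemma gapSet_nonempty {n : ℕ} (hn : 2 ≤ n) : (gapSet n).Nonempty :=
  ⟨_, complete n, complete_isCapacity n, glVal_complete_pos hn, rfl⟩

lemma one_le_of_mem_gapSet {n : ℕ} (hn : 2 ≤ n) {r : ℝ} (hr : r ∈ gapSet n) : 1 ≤ r := by
  obtain ⟨c, hc, hpos, rfl⟩ := hr
  rw [le_div_iff₀ hpos, one_mul]
  exact glVal_le_Phi hn hc

lemma le_half_of_mem_gapSet {n : ℕ} (hn : 2 ≤ n) {r : ℝ} (hr : r ∈ gapSet n) :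
    r ≤ (n : ℝ) / 2 := by
  obtain ⟨c, hc, hpos, rfl⟩ := hr
  rw [div_le_iff₀ hpos]
  exact Phi_le_mul_glVal hn hc

lemma gapSet_bddAbove {n : ℕ} (hn : 2 ≤ n) : BddAbove (gapSet n) :=
  ⟨(n : ℝ) / 2, fun _ hr => le_half_of_mem_gapSet hn hr⟩

lemma isLUB_gapSet {n : ℕ} (hn : 2 ≤ n) : IsLUB (gapSet n) (sSup (gapSet n)) :=
  isLUB_csSup (gapSet_nonempty hn) (gapSet_bddAbove hn)

lemma step_mem {n : ℕ} (hn : 2 ≤ n) {r : ℝ} (hr : r ∈ gapSet n) :
    ∃ r' ∈ gapSet (n + 1), ((n : ℝ) + 2) * r / ((n : ℝ) + 2 * r) ≤ r' := by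
  have h1 := one_le_of_mem_gapSet hn hr
  obtain ⟨c, hc, hpos, rfl⟩ := hr
  obtain ⟨c', hc', hPhi, hpos', hle⟩ := dup_step hn hc hpos
  refine ⟨_, ⟨c', hc', hpos', rfl⟩, ?_⟩
  have hn0 : (0 : ℝ) < n := by exact_mod_cast (by omega : 0 < n)
  have hP : 0 < Phi c := lt_of_lt_of_le hpos (glVal_le_Phi hn hc)
  rw [le_div_iff₀ hpos']
  have e : ((n : ℝ) + 2) * (Phi c / glVal c) / ((n : ℝ) + 2 * (Phi c / glVal c)) =
      ((n : ℝ) + 2) * Phi c / ((n : ℝ) * glVal c + 2 * Phi c) := by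
    field_simp
  rw [e]
  have hden : 0 < (n : ℝ) * glVal c + 2 * Phi c := by positivity
  calc ((n : ℝ) + 2) * Phi c / ((n : ℝ) * glVal c + 2 * Phi c) * glVal c'
      ≤ ((n : ℝ) + 2) * Phi c / ((n : ℝ) * glVal c + 2 * Phi c) *
          (((n : ℝ) * glVal c + 2 * Phi c) / ((n : ℝ) + 2)) :=
        mul_le_mul_of_nonneg_left hle (by positivity)
    _ = Phi c := by field_simp
    _ ≤ Phi c' := hPhi

lemma near_monotone {n : ℕ} (hn : 2 ≤ n) :
    ((n : ℝ) + 2) * sSup (gapSet n) / ((n : ℝ) + 2 * sSup (gapSet n)) ≤ sSup (gapSet (n + 1)) := by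
  set g := sSup (gapSet n) with hg
  set G := sSup (gapSet (n + 1)) with hG
  have hn0 : (0 : ℝ) < n := by exact_mod_cast (by omega : 0 < n)
  have hg1 : 1 ≤ g := by
    obtain ⟨r, hr⟩ := gapSet_nonempty hn
    exact (one_le_of_mem_gapSet hn hr).trans ((isLUB_gapSet hn).1 hr)
  have hG1 : 1 ≤ G := by
    obtain ⟨r, hr⟩ := gapSet_nonempty (n := n + 1) (by omega)
    exact (one_le_of_mem_gapSet (by omega) hr).trans ((isLUB_gapSet (by omega)).1 hr)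
  have hall : ∀ r ∈ gapSet n, r * ((n : ℝ) + 2 - 2 * G) ≤ (n : ℝ) * G := by
    intro r hr
    have h1 := one_le_of_mem_gapSet hn hr
    obtain ⟨r', hr', hle⟩ := step_mem hn hr
    have h2 : ((n : ℝ) + 2) * r / ((n : ℝ) + 2 * r) ≤ G :=
      hle.trans ((isLUB_gapSet (by omega)).1 hr')
    rw [div_le_iff₀ (by positivity)] at h2
    linarith
  rw [div_le_iff₀ (by positivity)]
  have : g * ((n : ℝ) + 2 - 2 * G) ≤ (n : ℝ) * G := by
    by_cases hs : 0 < (n : ℝ) + 2 - 2 * G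
    · rw [← le_div_iff₀ hs]
      refine (isLUB_gapSet hn).2 fun r hr => ?_
      rw [le_div_iff₀ hs]
      exact hall r hr
    · rw [not_lt] at hs
      have : g * ((n : ℝ) + 2 - 2 * G) ≤ 0 := mul_nonpos_of_nonneg_of_nonpos (by linarith) hs
      have : 0 ≤ (n : ℝ) * G := by positivity
      linarith
  linarith

lemma lower_all (N : ℕ) (hN : 5 ≤ N) : ∃ c : Fin N → Fin N → ℝ, IsCapacity c ∧ 0 < glVal c ∧
    glVal c ≤ (1 - 3 / ((N : ℝ) * ((N : ℝ) + 1))) * Phi c := by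
  induction N, hN using Nat.le_induction with
  | base =>
    refine ⟨k23, k23_isCapacity, glVal_pos_of_Phi_pos (by norm_num) k23_isCapacity
      (lt_of_lt_of_le (by norm_num) half_le_Phi_k23), ?_⟩
    have h1 := half_le_Phi_k23
    have h2 := glVal_k23_le
    norm_num
    linarith
  | succ N hN ih =>
    obtain ⟨c, hc, hpos, hle⟩ := ih
    obtain ⟨c', hc', hPhi, hpos', hle'⟩ := dup_step (by omega) hc hpos
    refine ⟨c', hc', hpos', hle'.trans ?_⟩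
    have hN0 : (5 : ℝ) ≤ N := by exact_mod_cast hN
    have hP : 0 ≤ Phi c := Phi_nonneg (by omega) hc
    have hx : 0 ≤ 1 - 3 / (((N + 1 : ℕ) : ℝ) * (((N + 1 : ℕ) : ℝ) + 1)) := by
      push_cast
      rw [sub_nonneg, div_le_one (by positivity)]
      nlinarith
    calc ((N : ℝ) * glVal c + 2 * Phi c) / ((N : ℝ) + 2)
        ≤ ((N : ℝ) * ((1 - 3 / ((N : ℝ) * ((N : ℝ) + 1))) * Phi c) + 2 * Phi c) / ((N : ℝ) + 2) := by
          gcongr
      _ = (1 - 3 / (((N + 1 : ℕ) : ℝ) * (((N + 1 : ℕ) : ℝ) + 1))) * Phi c := by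
          push_cast
          field_simp
          ring
      _ ≤ _ := mul_le_mul_of_nonneg_left hPhi hx

lemma lower_gap (N : ℕ) (hN : 5 ≤ N) :
    (N : ℝ) * ((N : ℝ) + 1) / ((N : ℝ) * ((N : ℝ) + 1) - 3) ≤ sSup (gapSet N) := by
  obtain ⟨c, hc, hpos, hle⟩ := lower_all N hN
  have hN0 : (5 : ℝ) ≤ N := by exact_mod_cast hN
  refine le_trans ?_ ((isLUB_gapSet (by omega)).1 ⟨c, hc, hpos, rfl⟩)
  rw [le_div_iff₀ hpos, div_mul_eq_mul_div, div_le_iff₀ (by nlinarith)]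
  have e : (1 - 3 / ((N : ℝ) * ((N : ℝ) + 1))) * Phi c =
      ((N : ℝ) * ((N : ℝ) + 1) - 3) * Phi c / ((N : ℝ) * ((N : ℝ) + 1)) := by
    field_simp
  rw [e, le_div_iff₀ (by positivity)] at hle
  linarith

lemma sSup_gapSet_eq_one {n : ℕ} (hn : 2 ≤ n)
    (h : ∀ c : Fin n → Fin n → ℝ, IsCapacity c → glVal c = Phi c) : sSup (gapSet n) = 1 := by
  rw [gapSet_eq_one hn h]
  simp

end Vale.Agent.P318
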