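import Vale.Agent.P318.Basic2

namespace Vale.Agent.P318

open Finset

lemma pairSum_two (w : Fin 2 → Fin 2 → ℝ) : pairSum w = w 0 1 := by
  simp [pairSum, Fin.sum_univ_two]

lemma pairSum_three (w : Fin 3 → Fin 3 → ℝ) : pairSum w = w 0 1 + w 0 2 + w 1 2 := by
  simp only [pairSum, Fin.sum_univ_three]
  have h01 : (0 : Fin 3) < 1 := by decide
  have h02 : (0 : Fin 3) < 2 := by decide
  have h12 : (1 : Fin 3) < 2 := by decide
  simp [h01, h02, h12, not_lt.mpr h01.le, not_lt.mpr h02.le, not_lt.mpr h12.le]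

lemma pairSum_four (w : Fin 4 → Fin 4 → ℝ) :
    pairSum w = w 0 1 + w 0 2 + w 0 3 + w 1 2 + w 1 3 + w 2 3 := by
  simp only [pairSum, Fin.sum_univ_four]
  have h01 : (0 : Fin 4) < 1 := by decide
  have h02 : (0 : Fin 4) < 2 := by decide
  have h03 : (0 : Fin 4) < 3 := by decide
  have h12 : (1 : Fin 4) < 2 := by decide
  have h13 : (1 : Fin 4) < 3 := by decide
  have h23 : (2 : Fin 4) < 3 := by decide
  simp [h01, h02, h03, h12, h13, h23, not_lt.mpr h01.le, not_lt.mpr h02.le, not_lt.mpr h03.le,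
    not_lt.mpr h12.le, not_lt.mpr h13.le, not_lt.mpr h23.le]
  ring

theorem exact_two {c : Fin 2 → Fin 2 → ℝ} (hc : IsCapacity c) : glVal c = Phi c := by
  refine le_antisymm (glVal_le_Phi le_rfl hc) (le_glVal le_rfl fun d hd h1 => ?_)
  have h0 := Phi_mul_le hc (S := {0}) ⟨0, by simp⟩ (by decide)
  have e0 : cutCap c {0} = c 0 1 := by
    simp [cutCap, show ({0} : Finset (Fin 2))ᶜ = {1} from by decide]
  rw [e0] at h0
  rw [pairSum_two] at h1 ⊢
  simp at h0
  rw [h1]
  linarith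

theorem exact_three {c : Fin 3 → Fin 3 → ℝ} (hc : IsCapacity c) : glVal c = Phi c := by
  refine le_antisymm (glVal_le_Phi (by norm_num) hc) (le_glVal (by norm_num) fun d hd h1 => ?_)
  have h0 := Phi_mul_le hc (S := {0}) ⟨0, by simp⟩ (by decide)
  have h1' := Phi_mul_le hc (S := {1}) ⟨1, by simp⟩ (by decide)
  have h2 := Phi_mul_le hc (S := {2}) ⟨2, by simp⟩ (by decide)
  have e0 : cutCap c {0} = c 0 1 + c 0 2 := by
    simp [cutCap, show ({0} : Finset (Fin 3))ᶜ = {1, 2} from by decide]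
  have e1 : cutCap c {1} = c 0 1 + c 1 2 := by
    simp [cutCap, show ({1} : Finset (Fin 3))ᶜ = {0, 2} from by decide, hc.symm 1 0]
  have e2 : cutCap c {2} = c 0 2 + c 1 2 := by
    simp [cutCap, show ({2} : Finset (Fin 3))ᶜ = {0, 1} from by decide, hc.symm 2 0, hc.symm 2 1]
  rw [e0] at h0
  rw [e1] at h1'
  rw [e2] at h2
  rw [pairSum_three] at h1 ⊢
  simp only [Finset.card_singleton, Nat.cast_one, Nat.cast_ofNat] at h0 h1' h2
  have t0 : 0 ≤ d 0 1 + d 0 2 - d 1 2 := by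
    have := hd.tri 1 0 2; rw [hd.symm 1 0] at this; linarith
  have t1 : 0 ≤ d 0 1 + d 1 2 - d 0 2 := by
    have := hd.tri 0 1 2; linarith
  have t2 : 0 ≤ d 0 2 + d 1 2 - d 0 1 := by
    have := hd.tri 0 2 1; rw [hd.symm 2 1] at this; linarith
  have m0 := mul_nonneg t0 (sub_nonneg.mpr h0)
  have m1 := mul_nonneg t1 (sub_nonneg.mpr h1')
  have m2 := mul_nonneg t2 (sub_nonneg.mpr h2)
  have : Phi c * (d 0 1 + d 0 2 + d 1 2) ≤ c 0 1 * d 0 1 + c 0 2 * d 0 2 + c 1 2 * d 1 2 := by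
    nlinarith
  rw [h1, mul_one] at this
  exact this

lemma four_key (P c01 c02 c03 c12 c13 c23 d01 d02 d03 d12 d13 d23 : ℝ)
    (g0 : 0 ≤ c01 + c02 + c03 - P * 3) (g1 : 0 ≤ c01 + c12 + c13 - P * 3)
    (g2 : 0 ≤ c02 + c12 + c23 - P * 3) (g3 : 0 ≤ c03 + c13 + c23 - P * 3)
    (g01 : 0 ≤ c02 + c03 + c12 + c13 - P * 4) (g02 : 0 ≤ c01 + c03 + c12 + c23 - P * 4)
    (g03 : 0 ≤ c01 + c02 + c13 + c23 - P * 4)
    (a1 : 0 ≤ d01 + d02 - d12) (a2 : 0 ≤ d01 + d12 - d02) (a3 : 0 ≤ d02 + d12 - d01)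
    (b1 : 0 ≤ d01 + d03 - d13) (b2 : 0 ≤ d01 + d13 - d03) (b3 : 0 ≤ d03 + d13 - d01)
    (e1 : 0 ≤ d02 + d03 - d23) (e2 : 0 ≤ d02 + d23 - d03) (e3 : 0 ≤ d03 + d23 - d02)
    (f1 : 0 ≤ d12 + d13 - d23) (f2 : 0 ≤ d12 + d23 - d13) (f3 : 0 ≤ d13 + d23 - d12) :
    P * (d01 + d02 + d03 + d12 + d13 + d23) ≤
      c01 * d01 + c02 * d02 + c03 * d03 + c12 * d12 + c13 * d13 + c23 * d23 := by
  by_cases hA : d01 + d23 ≤ d03 + d12 ∧ d02 + d13 ≤ d03 + d12
  · obtain ⟨hA1, hA2⟩ := hA
    have m0 := mul_nonneg a1 g0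
    have m1 := mul_nonneg b2 g1
    have m2 := mul_nonneg e2 g2
    have m3 := mul_nonneg f3 g3
    have m01 := mul_nonneg (sub_nonneg.mpr hA1) g01
    have m02 := mul_nonneg (sub_nonneg.mpr hA2) g02
    linarith
  · by_cases hB : d02 + d13 ≤ d01 + d23 ∧ d03 + d12 ≤ d01 + d23
    · obtain ⟨hB1, hB2⟩ := hB
      have m0 := mul_nonneg e1 g0
      have m1 := mul_nonneg f1 g1
      have m2 := mul_nonneg a3 g2
      have m3 := mul_nonneg b3 g3
      have m02 := mul_nonneg (sub_nonneg.mpr hB1) g02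
      have m03 := mul_nonneg (sub_nonneg.mpr hB2) g03
      linarith
    · have hC1 : d01 + d23 ≤ d02 + d13 := by
        by_contra h
        rw [not_le] at h
        by_cases h' : d03 + d12 ≤ d01 + d23
        · exact hB ⟨h.le, h'⟩
        · rw [not_le] at h'
          exact hA ⟨h'.le, by linarith⟩
      have hC2 : d03 + d12 ≤ d02 + d13 := by
        by_contra h
        rw [not_le] at h
        exact hA ⟨by linarith, h.le⟩
      have m0 := mul_nonneg b1 g0
      have m1 := mul_nonneg a2 g1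
      have m2 := mul_nonneg f2 g2
      have m3 := mul_nonneg e3 g3
      have m01 := mul_nonneg (sub_nonneg.mpr hC1) g01
      have m03 := mul_nonneg (sub_nonneg.mpr hC2) g03
      linarith

theorem exact_four {c : Fin 4 → Fin 4 → ℝ} (hc : IsCapacity c) : glVal c = Phi c := by
  refine le_antisymm (glVal_le_Phi (by norm_num) hc) (le_glVal (by norm_num) fun d hd h1 => ?_)
  have h0 := Phi_mul_le hc (S := {0}) ⟨0, by simp⟩ (by decide)
  have h1' := Phi_mul_le hc (S := {1}) ⟨1, by simp⟩ (by decide)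
  have h2 := Phi_mul_le hc (S := {2}) ⟨2, by simp⟩ (by decide)
  have h3 := Phi_mul_le hc (S := {3}) ⟨3, by simp⟩ (by decide)
  have h01 := Phi_mul_le hc (S := {0, 1}) ⟨0, by simp⟩ (by decide)
  have h02 := Phi_mul_le hc (S := {0, 2}) ⟨0, by simp⟩ (by decide)
  have h03 := Phi_mul_le hc (S := {0, 3}) ⟨0, by simp⟩ (by decide)
  have e0 : cutCap c {0} = c 0 1 + c 0 2 + c 0 3 := by
    simp [cutCap, show ({0} : Finset (Fin 4))ᶜ = {1, 2, 3} from by decide]
    ring
  have e1 : cutCap c {1} = c 0 1 + c 1 2 + c 1 3 := by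
    simp [cutCap, show ({1} : Finset (Fin 4))ᶜ = {0, 2, 3} from by decide, hc.symm 1 0]
    ring
  have e2 : cutCap c {2} = c 0 2 + c 1 2 + c 2 3 := by
    simp [cutCap, show ({2} : Finset (Fin 4))ᶜ = {0, 1, 3} from by decide, hc.symm 2 0,
      hc.symm 2 1]
    ring
  have e3 : cutCap c {3} = c 0 3 + c 1 3 + c 2 3 := by
    simp [cutCap, show ({3} : Finset (Fin 4))ᶜ = {0, 1, 2} from by decide, hc.symm 3 0,
      hc.symm 3 1, hc.symm 3 2]
    ring
  have e01 : cutCap c {0, 1} = c 0 2 + c 0 3 + c 1 2 + c 1 3 := by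
    simp [cutCap, show ({0, 1} : Finset (Fin 4))ᶜ = {2, 3} from by decide]
    ring
  have e02 : cutCap c {0, 2} = c 0 1 + c 0 3 + c 1 2 + c 2 3 := by
    simp [cutCap, show ({0, 2} : Finset (Fin 4))ᶜ = {1, 3} from by decide, hc.symm 2 1]
    ring
  have e03 : cutCap c {0, 3} = c 0 1 + c 0 2 + c 1 3 + c 2 3 := by
    simp [cutCap, show ({0, 3} : Finset (Fin 4))ᶜ = {1, 2} from by decide, hc.symm 3 1,
      hc.symm 3 2]
    ring
  rw [e0] at h0
  rw [e1] at h1'
  rw [e2] at h2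
  rw [e3] at h3
  rw [e01] at h01
  rw [e02] at h02
  rw [e03] at h03
  rw [pairSum_four] at h1 ⊢
  have c01 : ({0, 1} : Finset (Fin 4)).card = 2 := by decide
  have c02 : ({0, 2} : Finset (Fin 4)).card = 2 := by decide
  have c03 : ({0, 3} : Finset (Fin 4)).card = 2 := by decide
  rw [c01] at h01
  rw [c02] at h02
  rw [c03] at h03
  simp only [Finset.card_singleton, Nat.cast_one, Nat.cast_ofNat] at h0 h1' h2 h3 h01 h02 h03
  have s10 := hd.symm 1 0
  have s20 := hd.symm 2 0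
  have s30 := hd.symm 3 0
  have s21 := hd.symm 2 1
  have s31 := hd.symm 3 1
  have s32 := hd.symm 3 2
  have key := four_key (Phi c) (c 0 1) (c 0 2) (c 0 3) (c 1 2) (c 1 3) (c 2 3)
    (d 0 1) (d 0 2) (d 0 3) (d 1 2) (d 1 3) (d 2 3)
    (by linarith) (by linarith) (by linarith) (by linarith) (by linarith) (by linarith)
    (by linarith)
    (by have := hd.tri 1 0 2; linarith) (by have := hd.tri 0 1 2; linarith)
    (by have := hd.tri 0 2 1; linarith)
    (by have := hd.tri 1 0 3; linarith) (by have := hd.tri 0 1 3; linarith)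
    (by have := hd.tri 0 3 1; linarith)
    (by have := hd.tri 2 0 3; linarith) (by have := hd.tri 0 2 3; linarith)
    (by have := hd.tri 0 3 2; linarith)
    (by have := hd.tri 2 1 3; linarith) (by have := hd.tri 1 2 3; linarith)
    (by have := hd.tri 1 3 2; linarith)
  rw [h1, mul_one] at key
  exact key

/-- the complete graph with unit capacities -/
noncomputable def complete (n : ℕ) (i j : Fin n) : ℝ := if i = j then 0 else 1

lemma complete_isCapacity (n : ℕ) : IsCapacity (complete n) where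
  symm i j := by simp [complete, eq_comm]
  nonneg i j := by unfold complete; split_ifs <;> norm_num
  diag i := by simp [complete]

lemma pairSum_complete_mul {n : ℕ} (d : Fin n → Fin n → ℝ) :
    pairSum (fun i j => complete n i j * d i j) = pairSum d := by
  unfold pairSum
  refine Finset.sum_congr rfl fun i _ => Finset.sum_congr rfl fun j _ => ?_
  split_ifs with h
  · simp [complete, h.ne]
  · rfl

lemma glVal_complete_pos {n : ℕ} (hn : 2 ≤ n) : 0 < glVal (complete n) := by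
  have : (1 : ℝ) ≤ glVal (complete n) := le_glVal hn fun d _ h1 => by
    rw [pairSum_complete_mul, h1]
  linarith

lemma gapSet_eq_one {n : ℕ} (hn : 2 ≤ n)
    (h : ∀ c : Fin n → Fin n → ℝ, IsCapacity c → glVal c = Phi c) : gapSet n = {1} := by
  ext r
  constructor
  · rintro ⟨c, hc, hpos, rfl⟩
    rw [← h c hc]
    exact div_self hpos.ne'
  · rintro rfl
    refine ⟨complete n, complete_isCapacity n, glVal_complete_pos hn, ?_⟩
    rw [← h _ (complete_isCapacity n)]
    exact (div_self (glVal_complete_pos hn).ne').symm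

lemma gap_eq_one {n : ℕ} (hn : 2 ≤ n)
    (h : ∀ c : Fin n → Fin n → ℝ, IsCapacity c → glVal c = Phi c) : gap n = 1 := by
  unfold gap
  rw [gapSet_eq_one hn h]
  simp

end Vale.Agent.P318
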